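import Crest.Agent.R322.Defs
import Crest.Agent.R215.LibG

set_option autoImplicit false

open MeasureTheory ProbabilityTheory Set Metric
open scoped ENNReal

namespace Crest.Agent.R322

namespace SLABaux

/-- Gaussian measure of an interval `|a + δ g| ≤ r` -/
lemma gauss_interval (a δ r : ℝ) (hδ : 0 < δ) (_hr : 0 ≤ r) :
    (gaussianReal 0 1) {g : ℝ | |a + g * δ| ≤ r} ≤ ENNReal.ofReal (r / δ) := by
  have hset : {g : ℝ | |a + g * δ| ≤ r} = Icc ((-r - a) / δ) ((r - a) / δ) := by
    ext g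
    rw [mem_Icc, div_le_iff₀ hδ, le_div_iff₀ hδ]
    show |a + g * δ| ≤ r ↔ _
    rw [abs_le]
    constructor
    · rintro ⟨h1, h2⟩; constructor <;> linarith
    · rintro ⟨h1, h2⟩; constructor <;> linarith
  rw [hset, gaussianReal_apply 0 (by norm_num : (1 : NNReal) ≠ 0)]
  have hpdf : ∀ x, gaussianPDF 0 1 x ≤ ENNReal.ofReal (1 / 2) := by
    intro x
    rw [gaussianPDF]
    refine ENNReal.ofReal_le_ofReal ?_
    rw [gaussianPDFReal]
    have h1 : Real.exp (-(x - 0) ^ 2 / (2 * ((1 : NNReal) : ℝ))) ≤ 1 := by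
      rw [Real.exp_le_one_iff]
      simp only [NNReal.coe_one, mul_one, sub_zero]
      have : 0 ≤ x ^ 2 := sq_nonneg x
      linarith [div_nonneg this (by norm_num : (0:ℝ) ≤ 2), neg_div 2 (x ^ 2)]
    have h2 : (Real.sqrt (2 * Real.pi * ((1 : NNReal) : ℝ)))⁻¹ ≤ 1 / 2 := by
      rw [inv_eq_one_div]
      refine one_div_le_one_div_of_le (by norm_num) ?_
      refine Real.le_sqrt_of_sq_le ?_
      simp only [NNReal.coe_one, mul_one]
      have := Real.pi_gt_three
      linarith
    have h3 : 0 ≤ (Real.sqrt (2 * Real.pi * ((1 : NNReal) : ℝ)))⁻¹ := by positivity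
    calc _ ≤ (Real.sqrt (2 * Real.pi * ((1 : NNReal) : ℝ)))⁻¹ * 1 :=
          mul_le_mul_of_nonneg_left h1 h3
      _ ≤ 1 / 2 := by rw [mul_one]; exact h2
  calc ∫⁻ x in Icc ((-r - a) / δ) ((r - a) / δ), gaussianPDF 0 1 x
      ≤ ∫⁻ _x in Icc ((-r - a) / δ) ((r - a) / δ), ENNReal.ofReal (1 / 2) :=
        lintegral_mono fun x => hpdf x
    _ = ENNReal.ofReal (r / δ) := by
        rw [setLIntegral_const, Real.volume_Icc, ← ENNReal.ofReal_mul (by norm_num)]
        congr 1
        field_simp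
        ring

lemma dl_castSucc {d m : ℕ} (w : Fin (m + 1) → E d) (k : Fin m) :
    dl (fun i : Fin m => w i.castSucc) k = dl w k.castSucc := by
  unfold dl
  congr 2
  congr 1
  ext v
  constructor
  · rintro ⟨i, hi, rfl⟩
    exact ⟨i.castSucc, by simpa using hi, rfl⟩
  · rintro ⟨i, hi, rfl⟩
    have hlt : (i : ℕ) < m := by
      have h1 : (i : ℕ) < k := by simpa [Fin.lt_def] using hi
      omega
    refine ⟨⟨i, hlt⟩, ?_, ?_⟩
    · rw [Fin.lt_def] at *; simpa using hi
    · rfl

/-- one step of the slab induction -/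
lemma step {d m : ℕ} (w : Fin (m + 1) → E d) (r : ℝ) (hr : 0 ≤ r) (hw : 0 < dl w (Fin.last m)) :
    (stdGaussian (E d)) {x | ∀ k, |inner ℝ x (w k)| ≤ r} ≤
      (stdGaussian (E d)) {x | ∀ k : Fin m, |inner ℝ x (w k.castSucc)| ≤ r} *
        ENNReal.ofReal (r / dl w (Fin.last m)) := by
  set V : Submodule ℝ (E d) := Submodule.span ℝ {v | ∃ i : Fin (m + 1), i < Fin.last m ∧ v = w i}
    with hV
  set δ := dl w (Fin.last m) with hδ
  set p := V.starProjection (w (Fin.last m)) with hp
  have hδ2 : ‖w (Fin.last m) - p‖ = δ := by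
    rw [hδ, dl, ← hV, Submodule.starProjection_minimal, Metric.infDist_eq_iInf]
    simp only [dist_eq_norm]
    rfl
  obtain ⟨e, he⟩ : ∃ e : E d, e = δ⁻¹ • (w (Fin.last m) - p) := ⟨_, rfl⟩
  have hen : ‖e‖ = 1 := by
    rw [he, norm_smul, hδ2, Real.norm_eq_abs, abs_of_pos (inv_pos.mpr hw)]
    exact inv_mul_cancel₀ hw.ne'
  have hpe : w (Fin.last m) = p + δ • e := by
    rw [he, smul_smul, mul_inv_cancel₀ hw.ne', one_smul]
    abel
  have horth : ∀ v ∈ V, inner ℝ e v = 0 := by
    intro v hv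
    rw [he, inner_smul_left]
    have : inner ℝ (w (Fin.last m) - p) v = 0 := by
      rw [hp]
      exact V.starProjection_inner_eq_zero _ _ hv
    rw [this]; simp
  have hpV : p ∈ V := by rw [hp]; exact V.starProjection_apply_mem _
  have hwV : ∀ k : Fin m, w k.castSucc ∈ V := fun k =>
    Submodule.subset_span ⟨k.castSucc, Fin.castSucc_lt_last k, rfl⟩
  -- replace
  have hrep := Crest.Agent.R215.sg_replace (E := E d) e hen
  have hm : Measurable (fun q : E d × ℝ => q.1 - (inner ℝ q.1 e : ℝ) • e + q.2 • e) := by fun_prop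
  have hSm : MeasurableSet {x : E d | ∀ k, |inner ℝ x (w k)| ≤ r} := by
    have : {x : E d | ∀ k, |inner ℝ x (w k)| ≤ r} = ⋂ k, {x : E d | |inner ℝ x (w k)| ≤ r} := by
      ext x; simp
    rw [this]
    refine MeasurableSet.iInter fun k => ?_
    exact measurableSet_le (by fun_prop) measurable_const
  have hS'm : MeasurableSet {x : E d | ∀ k : Fin m, |inner ℝ x (w k.castSucc)| ≤ r} := by
    have : {x : E d | ∀ k : Fin m, |inner ℝ x (w k.castSucc)| ≤ r} =
        ⋂ k : Fin m, {x : E d | |inner ℝ x (w k.castSucc)| ≤ r} := by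
      ext x; simp
    rw [this]
    refine MeasurableSet.iInter fun k => ?_
    exact measurableSet_le (by fun_prop) measurable_const
  have hee : (inner ℝ e e : ℝ) = 1 := by
    rw [real_inner_self_eq_norm_sq, hen, one_pow]
  have hA : (fun q : E d × ℝ => q.1 - (inner ℝ q.1 e : ℝ) • e + q.2 • e) ⁻¹'
      {x : E d | ∀ k, |inner ℝ x (w k)| ≤ r} =
      {q : E d × ℝ | (∀ k : Fin m, |inner ℝ q.1 (w k.castSucc)| ≤ r) ∧
        |inner ℝ q.1 p + q.2 * δ| ≤ r} := by
    ext q
    simp only [mem_preimage]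
    show (∀ k, |inner ℝ (q.1 - (inner ℝ q.1 e : ℝ) • e + q.2 • e) (w k)| ≤ r) ↔
      ((∀ k : Fin m, |inner ℝ q.1 (w k.castSucc)| ≤ r) ∧ |inner ℝ q.1 p + q.2 * δ| ≤ r)
    rw [Fin.forall_fin_succ']
    have h1 : ∀ k : Fin m, (inner ℝ (q.1 - (inner ℝ q.1 e : ℝ) • e + q.2 • e) (w k.castSucc) : ℝ) =
        inner ℝ q.1 (w k.castSucc) := by
      intro k
      rw [inner_add_left, inner_sub_left, real_inner_smul_left, real_inner_smul_left,
        horth _ (hwV k)]
      ring
    have h2 : (inner ℝ (q.1 - (inner ℝ q.1 e : ℝ) • e + q.2 • e) (w (Fin.last m)) : ℝ) =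
        inner ℝ q.1 p + q.2 * δ := by
      rw [hpe, inner_add_left, inner_sub_left, real_inner_smul_left, real_inner_smul_left,
        inner_add_right, inner_add_right, real_inner_smul_right, real_inner_smul_right,
        horth _ hpV, hee]
      ring
    simp only [h1, h2]
  conv_lhs => rw [← hrep]
  rw [Measure.map_apply hm hSm, hA]
  have hBm : MeasurableSet {q : E d × ℝ | (∀ k : Fin m, |inner ℝ q.1 (w k.castSucc)| ≤ r) ∧
        |inner ℝ q.1 p + q.2 * δ| ≤ r} := by rw [← hA]; exact hm hSm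
  rw [Measure.prod_apply hBm]
  calc ∫⁻ x, Crest.Agent.R215.g1 (Prod.mk x ⁻¹'
        {q : E d × ℝ | (∀ k : Fin m, |inner ℝ q.1 (w k.castSucc)| ≤ r) ∧
          |inner ℝ q.1 p + q.2 * δ| ≤ r}) ∂(stdGaussian (E d))
      ≤ ∫⁻ x, ({x : E d | ∀ k : Fin m, |inner ℝ x (w k.castSucc)| ≤ r}).indicator
          (fun _ => ENNReal.ofReal (r / δ)) x ∂(stdGaussian (E d)) := by
        refine lintegral_mono fun x => ?_
        by_cases hx : x ∈ {x : E d | ∀ k : Fin m, |inner ℝ x (w k.castSucc)| ≤ r}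
        · rw [indicator_of_mem hx]
          refine le_trans (measure_mono ?_) (gauss_interval (inner ℝ x p) δ r hw hr)
          intro g hg
          exact hg.2
        · rw [indicator_of_notMem hx]
          refine le_of_eq ?_
          rw [show (Prod.mk x ⁻¹'
            {q : E d × ℝ | (∀ k : Fin m, |inner ℝ q.1 (w k.castSucc)| ≤ r) ∧
              |inner ℝ q.1 p + q.2 * δ| ≤ r}) = ∅ from ?_, measure_empty]
          ext g
          constructor
          · intro hg; exact (hx hg.1).elim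
          · intro hg; exact hg.elim
    _ = _ := by
        rw [lintegral_indicator hS'm, setLIntegral_const, mul_comm]

end SLABaux

open SLABaux in
theorem slab : StSlab := by
  intro d m
  induction m with
  | zero =>
    intro w r hr hw
    simp
  | succ m ih =>
    intro w r hr hw
    have h1 := step w r hr (hw (Fin.last m))
    have h2 := ih (fun i : Fin m => w i.castSucc) r hr (fun k => by
      rw [dl_castSucc]; exact hw _)
    rw [Fin.prod_univ_castSucc]
    have h3 : (stdGaussian (E d)).real {x | ∀ k, |inner ℝ x (w k)| ≤ r} ≤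
        (stdGaussian (E d)).real {x | ∀ k : Fin m, |inner ℝ x (w k.castSucc)| ≤ r} *
          (r / dl w (Fin.last m)) := by
      have h4 := ENNReal.toReal_mono (ENNReal.mul_ne_top (measure_ne_top _ _) ENNReal.ofReal_ne_top)
        h1
      rw [ENNReal.toReal_mul, ENNReal.toReal_ofReal (div_nonneg hr (hw _).le)] at h4
      exact h4
    refine h3.trans ?_
    refine mul_le_mul_of_nonneg_right ?_ (div_nonneg hr (hw _).le)
    refine h2.trans (le_of_eq ?_)
    refine Finset.prod_congr rfl fun k _ => ?_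
    rw [dl_castSucc]

end Crest.Agent.R322
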